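import Crest.Agent.Lib.S66.Concrete

/-!
# S0066: the number of copies in the concrete matrix
-/

set_option autoImplicit false

namespace S66.CountConcrete

open S66.Tree S66.Frames S66.Rigid S66.Concrete
open Crest.CombinatoricsR.OrderedMatrix

/-- Two lines of one group of size one coincide. -/
lemma line_unique {G : Type*} [LinearOrder G] [Fintype G] {s : G → ℕ} {n : ℕ}
    (hs : ∑ g, s g = n) {i i' : Fin n} {g : G} (e : Layout.grp hs i = g)
    (e' : Layout.grp hs i' = g) (h1 : s g = 1) : i = i' := by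
  have key : ∀ (g g' : G) (_ : g = g') (ρ : Fin (s g)) (ρ' : Fin (s g')), s g = 1 →
      Layout.sel hs g ρ = Layout.sel hs g' ρ' := by
    intro g g' e0 ρ ρ' h1
    subst e0
    congr 1
    apply Fin.ext
    have := ρ.isLt
    have := ρ'.isLt
    omega
  obtain ⟨ρ, hρ⟩ := Layout.exists_sel hs i
  obtain ⟨ρ', hρ'⟩ := Layout.exists_sel hs i'
  rw [← hρ, ← hρ']
  exact key _ _ (e.trans e'.symm) ρ ρ' (by rw [e]; exact h1)

lemma rs_L1 {h : ℕ} (t : Fin (2 ^ h)) : rs h (core (L1 t : RC h)) = 1 := by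
  show size (4 * t.1 + 2) = 1
  rw [size, ν_L1]
  norm_num

lemma rs_L2 {h : ℕ} (t : Fin (2 ^ h)) : rs h (core (L2 t : RC h)) = 1 := by
  show size (4 * t.1 + 3) = 1
  rw [size, ν_L2]
  norm_num

lemma cs_L1 {h : ℕ} (t : Fin (2 ^ h)) : cs h (core (L1 t : CC h)) = 1 := by
  show size (4 * t.1 + 2) = 1
  rw [size, ν_L1]
  norm_num

lemma cs_L2 {h : ℕ} (t : Fin (2 ^ h)) : cs h (core (L2 t : CC h)) = 1 := by
  show size (4 * t.1 + 3) = 1
  rw [size, ν_L2]
  norm_num

/-- The count. -/
theorem count_le (h : ℕ) (hh : 2 ≤ h) :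
    orderedCopyCount H (A h hh) ≤ 2 ^ h * ((386 * h + 2) * 2 ^ h) ^ 128 := by
  classical
  unfold orderedCopyCount
  set n := (386 * h + 2) * 2 ^ h with hn
  -- the rigid structure of a copy
  have rigid_of : ∀ rc : {rc : (Fin 66 → Fin n) × (Fin 66 → Fin n) //
      StrictMono rc.1 ∧ StrictMono rc.2 ∧ ∀ i j : Fin 66, A h hh (rc.1 i) (rc.2 j) = H i j},
      ∃ (t : Fin (2 ^ h)), gR h hh (rc.1.1 64) = core (L1 t : RC h) ∧
        gR h hh (rc.1.1 65) = core (L2 t : RC h) ∧
        gC h hh (rc.1.2 64) = core (L1 t : CC h) ∧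
        gC h hh (rc.1.2 65) = core (L2 t : CC h) := by
    rintro ⟨⟨r, c⟩, hr, hc, hrc⟩
    obtain ⟨t, _, _, _, a1, a2, a3, a4⟩ := rigid_concrete h
      (φ := fun i => gR h hh (r i)) (ψ := fun j => gC h hh (c j))
      ((Layout.grp_mono _).comp hr.monotone) ((Layout.grp_mono _).comp hc.monotone) hrc
    exact ⟨t, a1, a2, a3, a4⟩
  choose τ h1 h2 h3 h4 using rigid_of
  let Φ : {rc : (Fin 66 → Fin n) × (Fin 66 → Fin n) //
      StrictMono rc.1 ∧ StrictMono rc.2 ∧ ∀ i j : Fin 66, A h hh (rc.1 i) (rc.2 j) = H i j} →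
      Fin (2 ^ h) × (Fin 64 → Fin n) × (Fin 64 → Fin n) :=
    fun rc => (τ rc, fun i => rc.1.1 (pos i), fun j => rc.1.2 (pos j))
  have hinj : Function.Injective Φ := by
    intro x y e
    simp only [Φ, Prod.mk.injEq] at e
    obtain ⟨e1, e2, e3⟩ := e
    have cases66 : ∀ i : Fin 66, (∃ i' : Fin 64, i = pos i') ∨ i = 64 ∨ i = 65 := by
      intro i
      by_cases hi : i.val < 64
      · exact Or.inl ⟨⟨i.val, hi⟩, rfl⟩
      · right
        have := i.isLt
        by_cases hi' : i.val = 64
        · left; exact Fin.ext hi'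
        · right; exact Fin.ext (by show i.val = 65; omega)
    apply Subtype.ext
    apply Prod.ext
    · funext i
      rcases cases66 i with ⟨i', rfl⟩ | rfl | rfl
      · exact congrFun e2 i'
      · have a := h1 x
        have b := h1 y
        rw [← e1] at b
        exact line_unique (sum_rs h hh) a b (rs_L1 _)
      · have a := h2 x
        have b := h2 y
        rw [← e1] at b
        exact line_unique (sum_rs h hh) a b (rs_L2 _)
    · funext i
      rcases cases66 i with ⟨i', rfl⟩ | rfl | rfl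
      · exact congrFun e3 i'
      · have a := h3 x
        have b := h3 y
        rw [← e1] at b
        exact line_unique (sum_cs h hh) a b (cs_L1 _)
      · have a := h4 x
        have b := h4 y
        rw [← e1] at b
        exact line_unique (sum_cs h hh) a b (cs_L2 _)
  refine (Fintype.card_le_of_injective Φ hinj).trans ?_
  simp only [Fintype.card_prod, Fintype.card_fin, Fintype.card_fun]
  apply le_of_eq
  ring

end S66.CountConcrete
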